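import Mathlib
import Vale.Agent.H5.BinPack.Inst
import Vale.Agent.H84.PairRec

/-!
# A two-lock recursion step for pair-into-bins bounds (support for P302)

`PairBound bins objs k` (from `Vale.Agent.H5.BinPack`) says that at most `k` disjoint pairs of
objects can be put into distinct bins (a pair fits a bin if its sum is at most the capacity).

`pairBound_step2`: let a gadget `Y` have bound `p` and at most `2 p + 4` objects, and let a top
block `(topB, topO)` have at most `q + 2` bins and bound `q`.  Add two copies of a new small
object `z` and two copies of a new bin `β`.  If the top objects fit no bin of `Y` and fit the bin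
`β` only together with `z`, then the combined gadget has bound `p + q + 4`.

The pointwise bookkeeping is the one of `Vale.Agent.H84.PairRec`; only the global counts change.
-/

namespace Vale.Agent.H30.PairRec2

open Vale.Agent.H5.BinPack Vale.Agent.H84.PairRec

lemma mem_bins2 {binsY topB : List ℤ} {β x : ℤ} (h : x ∈ binsY ++ β :: β :: topB) :
    x ∈ binsY ++ β :: topB := by
  simp only [List.mem_append, List.mem_cons] at h ⊢
  tauto

lemma mem_objs2 {objsY topO : List ℤ} {z x : ℤ} (h : x ∈ objsY ++ z :: z :: topO) :
    x ∈ objsY ++ z :: topO := by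
  simp only [List.mem_append, List.mem_cons] at h ⊢
  tauto

lemma filter_bins_Y (binsY topB : List ℤ) (β : ℤ) (hβY : β ∉ binsY)
    (hYT : ∀ t ∈ binsY, t ∉ topB) :
    (binsY ++ β :: β :: topB).filter (fun x => decide (x ∈ binsY)) = binsY := by
  rw [List.filter_append]
  have a1 : binsY.filter (fun x => decide (x ∈ binsY)) = binsY := by
    rw [List.filter_eq_self]
    intro a ha
    simpa using ha
  have a2 : (β :: β :: topB).filter (fun x => decide (x ∈ binsY)) = [] := by
    rw [List.filter_eq_nil_iff]
    intro a ha
    simp only [decide_eq_true_eq]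
    rcases List.mem_cons.mp ha with h | h
    · exact h ▸ hβY
    · rcases List.mem_cons.mp h with h | h
      · exact h ▸ hβY
      · exact fun h' => hYT a h' h
  rw [a1, a2, List.append_nil]

lemma filter_bins_T (binsY topB : List ℤ) (β : ℤ) (hβT : β ∉ topB)
    (hYT : ∀ t ∈ binsY, t ∉ topB) :
    (binsY ++ β :: β :: topB).filter (fun x => decide (x ∈ topB)) = topB := by
  rw [List.filter_append]
  have a1 : binsY.filter (fun x => decide (x ∈ topB)) = [] := by
    rw [List.filter_eq_nil_iff]
    intro a ha
    simpa using hYT a ha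
  have a2 : (β :: β :: topB).filter (fun x => decide (x ∈ topB)) = topB := by
    rw [List.filter_cons_of_neg (by simpa using hβT),
      List.filter_cons_of_neg (by simpa using hβT), List.filter_eq_self]
    intro a ha
    simpa using ha
  rw [a1, a2, List.nil_append]

lemma filter_objs_Y (objsY topO : List ℤ) (z : ℤ) (hzY : z ∉ objsY)
    (hOYT : ∀ y ∈ objsY, y ∉ topO) :
    (objsY ++ z :: z :: topO).filter (fun x => decide (x ∈ objsY)) = objsY := by
  rw [List.filter_append]
  have a1 : objsY.filter (fun x => decide (x ∈ objsY)) = objsY := by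
    rw [List.filter_eq_self]
    intro a ha
    simpa using ha
  have a2 : (z :: z :: topO).filter (fun x => decide (x ∈ objsY)) = [] := by
    rw [List.filter_eq_nil_iff]
    intro a ha
    simp only [decide_eq_true_eq]
    rcases List.mem_cons.mp ha with h | h
    · exact h ▸ hzY
    · rcases List.mem_cons.mp h with h | h
      · exact h ▸ hzY
      · exact fun h' => hOYT a h' h
  rw [a1, a2, List.append_nil]

lemma filter_objs_T (objsY topO : List ℤ) (z : ℤ) (hzT : z ∉ topO)
    (hOYT : ∀ y ∈ objsY, y ∉ topO) :
    (objsY ++ z :: z :: topO).filter (fun x => decide (x ∈ topO)) = topO := by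
  rw [List.filter_append]
  have a1 : objsY.filter (fun x => decide (x ∈ topO)) = [] := by
    rw [List.filter_eq_nil_iff]
    intro a ha
    simpa using hOYT a ha
  have a2 : (z :: z :: topO).filter (fun x => decide (x ∈ topO)) = topO := by
    rw [List.filter_cons_of_neg (by simpa using hzT),
      List.filter_cons_of_neg (by simpa using hzT), List.filter_eq_self]
    intro a ha
    simpa using ha
  rw [a1, a2, List.nil_append]

/-- **Two-lock recursion step for pair bounds.** -/
theorem pairBound_step2 (binsY objsY topB topO : List ℤ) (z β : ℤ) (p q : ℕ)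
    (hY : PairBound binsY objsY p) (hlen : objsY.length ≤ 2 * p + 4)
    (hT : PairBound topB topO q) (hB : topB.length ≤ q + 2)
    (hβY : β ∉ binsY) (hβT : β ∉ topB) (hYT : ∀ t ∈ binsY, t ∉ topB)
    (hzY : z ∉ objsY) (hzT : z ∉ topO) (hOYT : ∀ y ∈ objsY, y ∉ topO)
    (h1 : ∀ u ∈ topO, ∀ x ∈ objsY ++ z :: topO, ∀ t ∈ binsY, t < u + x)
    (h2 : ∀ u ∈ topO, ∀ y ∈ objsY ++ topO, β < u + y) :
    PairBound (binsY ++ β :: β :: topB) (objsY ++ z :: z :: topO) (p + q + 4) := by
  intro F hbins hobjs hfit
  have hbmem : ∀ t ∈ F, t.1 ∈ binsY ++ β :: topB := by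
    intro t ht
    have : t.1 ∈ ((F.map (fun t => t.1) : List ℤ) : Multiset ℤ) := by
      simp only [Multiset.mem_coe, List.mem_map]
      exact ⟨t, ht, rfl⟩
    exact mem_bins2 (Multiset.mem_coe.mp (Multiset.mem_of_le hbins this))
  have homem : ∀ t ∈ F, t.2.1 ∈ objsY ++ z :: topO ∧ t.2.2 ∈ objsY ++ z :: topO := by
    intro t ht
    have m1 : t.2.1 ∈ ((F.flatMap (fun t => [t.2.1, t.2.2]) : List ℤ) : Multiset ℤ) := by
      simp only [Multiset.mem_coe, List.mem_flatMap]
      exact ⟨t, ht, by simp⟩
    have m2 : t.2.2 ∈ ((F.flatMap (fun t => [t.2.1, t.2.2]) : List ℤ) : Multiset ℤ) := by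
      simp only [Multiset.mem_coe, List.mem_flatMap]
      exact ⟨t, ht, by simp⟩
    exact ⟨mem_objs2 (Multiset.mem_coe.mp (Multiset.mem_of_le hobjs m1)),
      mem_objs2 (Multiset.mem_coe.mp (Multiset.mem_of_le hobjs m2))⟩
  have hpt := fun t (ht : t ∈ F) =>
    pointwise binsY objsY topB topO z β hβY hβT hYT hzY hzT hOYT h1 h2 t (hbmem t ht)
      (homem t ht).1 (homem t ht).2 (hfit t ht)
  obtain ⟨e0, e1, e2, e3, e4, e5, e6⟩ :=
    sum_rel F (fT topB) (fβ β) (fa binsY z) (fb binsY z) (ftt topB topO) (zc z) (wc objsY)
      (zb binsY z) (zβ' z β) (zT topB z) (wb binsY objsY z) (wβ' objsY β) (wT objsY topB) hpt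
  -- pairs in top bins
  have gT : (F.map (fT topB)).sum ≤ q + 2 := by
    have e : (F.map (fT topB)).sum = F.countP (fun t => decide (t.1 ∈ topB)) :=
      sum_ite_eq_countP F (fun t => t.1 ∈ topB)
    have e' : F.countP (fun t => decide (t.1 ∈ topB)) =
        (F.map (fun t => t.1)).countP (fun x => decide (x ∈ topB)) := by
      rw [List.countP_map]; rfl
    have le := Multiset.countP_le_of_le (fun x => x ∈ topB) hbins
    rw [Multiset.coe_countP, Multiset.coe_countP] at le
    have c1 : (binsY ++ β :: β :: topB).countP (fun x => decide (x ∈ topB)) ≤ topB.length := by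
      rw [List.countP_eq_length_filter, filter_bins_T binsY topB β hβT hYT]
    omega
  -- pairs in the two bins `β`
  have gβ : (F.map (fβ β)).sum ≤ 2 := by
    have e : (F.map (fβ β)).sum = F.countP (fun t => decide (t.1 = β)) :=
      sum_ite_eq_countP F (fun t => t.1 = β)
    have e' : F.countP (fun t => decide (t.1 = β)) =
        (F.map (fun t => t.1)).countP (fun x => decide (x = β)) := by
      rw [List.countP_map]; rfl
    have le := Multiset.countP_le_of_le (fun x => x = β) hbins
    rw [Multiset.coe_countP, Multiset.coe_countP] at le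
    have c1 : (binsY ++ β :: β :: topB).countP (fun x => decide (x = β)) ≤ 2 := by
      rw [List.countP_append, List.countP_cons, List.countP_cons]
      have z1 : binsY.countP (fun x => decide (x = β)) = 0 := by
        rw [List.countP_eq_zero]
        intro a ha
        simp only [decide_eq_true_eq]
        exact fun e => hβY (e ▸ ha)
      have z2 : topB.countP (fun x => decide (x = β)) = 0 := by
        rw [List.countP_eq_zero]
        intro a ha
        simp only [decide_eq_true_eq]
        exact fun e => hβT (e ▸ ha)
      simp only [decide_true, if_true]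
      omega
    omega
  -- `z` is used at most twice
  have gz : (F.map (zc z)).sum ≤ 2 := by
    have e : (F.map (zc z)).sum = List.count z (F.flatMap (fun t => [t.2.1, t.2.2])) := by
      rw [List.count_flatMap]
      congr 1
      apply List.map_congr_left
      intro t _
      simp only [Function.comp, count_pair, zc]
    have le := Multiset.count_le_of_le z hobjs
    rw [Multiset.coe_count, Multiset.coe_count] at le
    have c1 : List.count z (objsY ++ z :: z :: topO) = 2 := by
      rw [List.count_append, List.count_cons_self, List.count_cons_self,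
        List.count_eq_zero.mpr hzY, List.count_eq_zero.mpr hzT]
    omega
  -- objects of `Y` used
  have gw : (F.map (wc objsY)).sum ≤ 2 * p + 4 := by
    have e : (F.map (wc objsY)).sum =
        List.countP (fun x => decide (x ∈ objsY)) (F.flatMap (fun t => [t.2.1, t.2.2])) := by
      rw [List.countP_flatMap]
      congr 1
      apply List.map_congr_left
      intro t _
      simp only [Function.comp, countP_pair, wc]
    have le := Multiset.countP_le_of_le (fun x => x ∈ objsY) hobjs
    rw [Multiset.coe_countP, Multiset.coe_countP] at le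
    have c1 : (objsY ++ z :: z :: topO).countP (fun x => decide (x ∈ objsY)) ≤ objsY.length := by
      rw [List.countP_eq_length_filter, filter_objs_Y objsY topO z hzY hOYT]
    omega
  -- pairs of `Y`-objects in `Y`-bins
  have ga : (F.map (fa binsY z)).sum ≤ p := by
    have e : (F.map (fa binsY z)).sum =
        F.countP (fun t => decide (t.1 ∈ binsY ∧ t.2.1 ≠ z ∧ t.2.2 ≠ z)) :=
      sum_ite_eq_countP F (fun t => t.1 ∈ binsY ∧ t.2.1 ≠ z ∧ t.2.2 ≠ z)
    rw [e, List.countP_eq_length_filter]
    set F' := F.filter (fun t => decide (t.1 ∈ binsY ∧ t.2.1 ≠ z ∧ t.2.2 ≠ z)) with hF'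
    have hsub : List.Sublist F' F := List.filter_sublist
    have hprop : ∀ t ∈ F', t.1 ∈ binsY ∧ t.2.1 ≠ z ∧ t.2.2 ≠ z := by
      intro t ht
      have := (List.mem_filter.mp ht).2
      simpa using this
    apply hY F'
    · have s1 : ((F'.map (fun t => t.1) : List ℤ) : Multiset ℤ) ≤
          ((binsY ++ β :: β :: topB : List ℤ) : Multiset ℤ) :=
        le_trans (Multiset.coe_le.mpr (hsub.map _).subperm) hbins
      have s2 := le_filter_of_le _ _ (fun x => x ∈ binsY) s1 (by
        intro x hx
        obtain ⟨t, ht, rfl⟩ := List.mem_map.mp hx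
        exact (hprop t ht).1)
      rw [filter_bins_Y binsY topB β hβY hYT] at s2
      exact s2
    · have s1 : ((F'.flatMap (fun t => [t.2.1, t.2.2]) : List ℤ) : Multiset ℤ) ≤
          ((objsY ++ z :: z :: topO : List ℤ) : Multiset ℤ) :=
        le_trans (Multiset.coe_le.mpr (hsub.flatMap _).subperm) hobjs
      have s2 := le_filter_of_le _ _ (fun x => x ∈ objsY) s1 (by
        intro x hx
        obtain ⟨t, ht, hxt⟩ := List.mem_flatMap.mp hx
        have htF : t ∈ F := hsub.subset ht
        obtain ⟨q1, q2, q3⟩ := hprop t ht
        have key : ∀ o o' : ℤ, o ∈ objsY ++ z :: topO → o' ∈ objsY ++ z :: topO → o ≠ z →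
            t.1 < o + o' ∨ o ∈ objsY := by
          intro o o' ho ho' hne
          rcases List.mem_append.mp ho with h | h
          · exact Or.inr h
          · rcases List.mem_cons.mp h with h | h
            · exact absurd h hne
            · exact Or.inl (h1 o h o' ho' t.1 q1)
        have hf := hfit t htF
        simp only [List.mem_cons, List.not_mem_nil, or_false] at hxt
        rcases hxt with rfl | rfl
        · rcases key t.2.1 t.2.2 (homem t htF).1 (homem t htF).2 q2 with h | h
          · omega
          · exact h
        · rcases key t.2.2 t.2.1 (homem t htF).2 (homem t htF).1 q3 with h | h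
          · omega
          · exact h)
      rw [filter_objs_Y objsY topO z hzY hOYT] at s2
      exact s2
    · intro t ht
      exact hfit t (hsub.subset ht)
  -- pairs of top objects in top bins
  have gtt : (F.map (ftt topB topO)).sum ≤ q := by
    have e : (F.map (ftt topB topO)).sum =
        F.countP (fun t => decide (t.1 ∈ topB ∧ t.2.1 ∈ topO ∧ t.2.2 ∈ topO)) :=
      sum_ite_eq_countP F (fun t => t.1 ∈ topB ∧ t.2.1 ∈ topO ∧ t.2.2 ∈ topO)
    rw [e, List.countP_eq_length_filter]
    set F' := F.filter (fun t => decide (t.1 ∈ topB ∧ t.2.1 ∈ topO ∧ t.2.2 ∈ topO)) with hF'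
    have hsub : List.Sublist F' F := List.filter_sublist
    have hprop : ∀ t ∈ F', t.1 ∈ topB ∧ t.2.1 ∈ topO ∧ t.2.2 ∈ topO := by
      intro t ht
      have := (List.mem_filter.mp ht).2
      simpa using this
    apply hT F'
    · have s1 : ((F'.map (fun t => t.1) : List ℤ) : Multiset ℤ) ≤
          ((binsY ++ β :: β :: topB : List ℤ) : Multiset ℤ) :=
        le_trans (Multiset.coe_le.mpr (hsub.map _).subperm) hbins
      have s2 := le_filter_of_le _ _ (fun x => x ∈ topB) s1 (by
        intro x hx
        obtain ⟨t, ht, rfl⟩ := List.mem_map.mp hx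
        exact (hprop t ht).1)
      rw [filter_bins_T binsY topB β hβT hYT] at s2
      exact s2
    · have s1 : ((F'.flatMap (fun t => [t.2.1, t.2.2]) : List ℤ) : Multiset ℤ) ≤
          ((objsY ++ z :: z :: topO : List ℤ) : Multiset ℤ) :=
        le_trans (Multiset.coe_le.mpr (hsub.flatMap _).subperm) hobjs
      have s2 := le_filter_of_le _ _ (fun x => x ∈ topO) s1 (by
        intro x hx
        obtain ⟨t, ht, hxt⟩ := List.mem_flatMap.mp hx
        obtain ⟨_, q2, q3⟩ := hprop t ht
        simp only [List.mem_cons, List.not_mem_nil, or_false] at hxt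
        rcases hxt with rfl | rfl
        · exact q2
        · exact q3)
      rw [filter_objs_T objsY topO z hzT hOYT] at s2
      exact s2
    · intro t ht
      exact hfit t (hsub.subset ht)
  omega

end Vale.Agent.H30.PairRec2
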